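import Vale.Agent.P269.H471.Final
import Vale.Agent.P269.H471.G0Main

/-!
# P269: the Virasoro conjecture for complete intersections which are not Fano

The Virasoro constraints in all genera and all curve classes, with arbitrary insertions, for
complete intersections of dimension at least three which are not Fano; the constraints of genus
zero and those of non-positive virtual dimension for all complete intersections of dimension
at least two; and the reduction of the constraints of any given genus and curve class to the
essential ones, which are finite in number when the dimension is at least three.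
-/

open Finset

namespace Vale.Agent.Results.P269.NonFano

open Vale.Agent.P269.H471

/-- Let `X` be a smooth complete intersection of type `T` and dimension `D ≥ 2`, with a system
`S` of descendant invariants.
1. If `D ≥ 3` and the index is at most zero, then all the Virasoro constraints hold, in all
   genera and all curve classes.
2. All the Virasoro constraints of genus zero hold.
3. All the Virasoro constraints of genus `g` and class `β` hold if
   `(1 - g)(D - 3) + c_1(X).β ≤ 0`.
4. The constraints of genus `g` and class `β` hold as soon as the essential ones hold.
5. For `D ≠ 2` there are finitely many essential ones for each `g` and `β`. -/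
theorem result (T : CIType) (B : Type) [Fintype B] [DecidableEq B] (X : Coh T B)
    (E : Type) [AddCommMonoid E] [HasAntidiagonal E] [DecidableEq E] (S : Desc X E) :
    (3 ≤ T.D → T.index ≤ 0 → ∀ K g β I, S.vir K g β I = 0) ∧
    (∀ K β I, S.vir K 0 β I = 0) ∧
    (∀ g β, S.vdim g β ≤ 0 → ∀ K I, S.vir K g β I = 0) ∧
    (∀ g β, (∀ KI, S.Essential g β KI → S.vir KI.1 g β KI.2 = 0) →
      ∀ K I, S.vir K g β I = 0) ∧
    (T.D ≠ 2 → ∀ g β, {KI | S.Essential g β KI}.Finite) := by
  refine ⟨?_, fun K β I => vir_genus_zero S K β I, fun g β h K I => vir_nonpos S g β h K I,
    fun g β h K I => vir_reduce S g β h K I, fun hD g β => essential_finite S hD g β⟩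
  intro hD hi K g β I
  cases g with
  | zero => exact vir_genus_zero S K β I
  | succ g =>
    apply vir_nonpos
    unfold Desc.vdim
    have h1 : (1 - ((g + 1 : ℕ) : ℤ)) * ((T.D : ℤ) - 3) ≤ 0 := by
      apply mul_nonpos_of_nonpos_of_nonneg
      · omega
      · omega
    have h2 : T.index * (S.deg β : ℤ) ≤ 0 :=
      mul_nonpos_of_nonpos_of_nonneg hi (by omega)
    omega

end Vale.Agent.Results.P269.NonFano
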